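import Mathlib

/-! Definitions for P228 (Hilbert-Smith): the algebra of Hermitian forms, Bott steps,
the standard lattice complex. -/

set_option linter.unusedSectionVars false
noncomputable section
open Matrix Filter Topology
namespace Vale.Agent.P228

abbrev M2 (R : Type) := Matrix (Fin 2) (Fin 2) R

section Plain
variable {R : Type} [Ring R]

def sh (b : R) : M2 R := !![1, b; 0, 1]
def th (b : R) : M2 R := !![1, 0; b, 1]
def dg (a b : R) : M2 R := !![a, 0; 0, b]
def s2 (a : R) : M2 R := !![a, 0; 0, a]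
def swp : M2 R := !![0, 1; 1, 0]
def J1 : M2 R := !![1, 0; 0, -1]
def el (S S' : R) : M2 R := sh (-S') * th S * sh (-S')
def elInv (S S' : R) : M2 R := sh S' * th (-S) * sh S'
def Jof (a a' : R) : M2 R := el a a' * J1 * elInv a a'

/-- interleaved direct sum of two `2 × 2` matrices -/
def blk (M N : M2 R) : M2 (M2 R) := Matrix.of fun i j => dg (M i j) (N i j)

/-- scalar matrix over an arbitrary index type -/
def sc (I : Type) [DecidableEq I] (a : R) : Matrix I I R := Matrix.diagonal fun _ => a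

end Plain

/-- a triple of cut-offs: half plane `P`, half plane `Q`, box `C` -/
structure Cut (R : Type) where
  P : R
  Q : R
  C : R

def Cut.map {R S : Type} (f : R → S) (c : Cut R) : Cut S := ⟨f c.P, f c.Q, f c.C⟩

def lift {R S : Type} {k : ℕ} (f : R → S) (c : Fin k → Cut R) : Fin k → Cut S :=
  fun j => (c j).map f

def Cut.Good {R : Type} [Ring R] (c : Cut R) : Prop :=
  c.C = 0 ∨ c.C = 1 ∨ c.P = 0 ∨ c.P = 1 ∨ c.Q = 0 ∨ c.Q = 1

def Cut.Herm {R : Type} [Star R] (c : Cut R) : Prop :=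
  star c.P = c.P ∧ star c.Q = c.Q ∧ star c.C = c.C

section StarAlg
variable {R S : Type} [Ring R] [StarRing R] [Algebra ℂ R] [StarModule ℂ R]
  [Ring S] [StarRing S] [Algebra ℂ S] [StarModule ℂ S]

/-- a Hermitian element with its inverse -/
def Val (A A' : R) : Prop := star A = A ∧ star A' = A' ∧ A * A' = 1 ∧ A' * A = 1

/-- convex combination -/
def cvx (t : ℝ) (a b : R) : R := ((1 - t : ℝ) : ℂ) • a + (t : ℂ) • b

def IsProj (e : R) : Prop := star e = e ∧ e * e = e

def sig : M2 R := !![0, Complex.I • (1 : R); -(Complex.I • (1 : R)), 0]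

/-- `J` is an involution, skew for the Hermitian form `S` -/
def Inv (S S' J : R) : Prop := Val S S' ∧ J * J = 1 ∧ star J * S = -(S * J)

def diff (A1 A1' A2 C : R) : M2 R := !![C * (A1 - A2) * C, 1; 1, C * A1' * C]

def diff' (A1 A1' A2 A2' C : R) : M2 R :=
  !![-(C * A1' * C * (1 + C * (A1 - A2) * C * A2')), star (1 + C * (A1 - A2) * C * A2');
     1 + C * (A1 - A2) * C * A2', -((1 + C * (A1 - A2) * C * A2') * (C * (A1 - A2) * C))]

def dW (J : R) : M2 R := el (Complex.I • J) (-(Complex.I • J))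
def dWi (J : R) : M2 R := elInv (Complex.I • J) (-(Complex.I • J))
def dA1 (S J : R) : M2 R := star (dW J) * s2 S * dW J
def dA1' (S' J : R) : M2 R := dWi J * s2 S' * star (dWi J)

def defo (S S' J C : R) : M2 (M2 R) := diff (dA1 S J) (dA1' S' J) (-(s2 S)) (s2 C)
def defo' (S S' J C : R) : M2 (M2 R) := diff' (dA1 S J) (dA1' S' J) (-(s2 S)) (-(s2 S')) (s2 C)

def JL (Q A A' : R) : M2 R := Jof (Q * A * Q) (Q * A' * Q)
def JR (Q : R) : M2 R := Jof (Q * Q) (Q * Q)
def bottJ (c : Cut R) (A A' : R) : M2 R := JR c.Q + s2 c.P * (JL c.Q A A' - JR c.Q)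

def bott (c : Cut R) (A A' : R) : M2 (M2 (M2 R)) := defo sig sig (bottJ c A A') (s2 c.C)
def bott' (c : Cut R) (A A' : R) : M2 (M2 (M2 R)) := defo' sig sig (bottJ c A A') (s2 c.C)

/-- entrywise map of matrices along a star algebra map -/
def mapH (I : Type) [Fintype I] [DecidableEq I] (f : R →⋆ₐ[ℂ] S) :
    Matrix I I R →⋆ₐ[ℂ] Matrix I I S :=
  { (f : R →ₐ[ℂ] S).mapMatrix with
    map_star' := fun M => by
      ext i j
      simp [Matrix.star_apply, map_star] }

@[simp] lemma mapH_apply (I : Type) [Fintype I] [DecidableEq I] (f : R →⋆ₐ[ℂ] S)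
    (M : Matrix I I R) (i j : I) : mapH I f M i j = f (M i j) := rfl

def scH (I : Type) [Fintype I] [DecidableEq I] : R →⋆ₐ[ℂ] Matrix I I R :=
  { Matrix.scalarAlgHom I ℂ with
    map_star' := fun a => by
      ext i j
      by_cases h : i = j
      · subst h; simp [Matrix.star_apply]
      · simp [Matrix.star_apply, Matrix.diagonal_apply_ne _ h, Matrix.diagonal_apply_ne _ (Ne.symm h)] }

lemma scH_apply (I : Type) [Fintype I] [DecidableEq I] (a : R) : scH I a = sc I a := rfl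

def s2H : R →⋆ₐ[ℂ] M2 R where
  toFun := s2
  map_one' := by ext i j; fin_cases i <;> fin_cases j <;> simp [s2]
  map_mul' a b := by ext i j; fin_cases i <;> fin_cases j <;> simp [s2]
  map_zero' := by ext i j; fin_cases i <;> fin_cases j <;> simp [s2]
  map_add' a b := by ext i j; fin_cases i <;> fin_cases j <;> simp [s2]
  commutes' r := by
    ext i j; fin_cases i <;> fin_cases j <;> simp [s2, Matrix.algebraMap_matrix_apply]
  map_star' a := by ext i j; fin_cases i <;> fin_cases j <;> simp [s2, Matrix.star_apply]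

@[simp] lemma s2H_apply (a : R) : s2H a = s2 a := rfl

/-- `a ↦ e * f a` for a projection `e` commuting with the image of `f` -/
def cutHom (e : R) (f : S →⋆ₐ[ℂ] R) (he : IsProj e) (hc : ∀ a, Commute e (f a)) :
    S →⋆ₙₐ[ℂ] R where
  toFun a := e * f a
  map_smul' r a := by simp
  map_zero' := by simp
  map_add' a b := by simp [mul_add]
  map_mul' a b := by
    rw [map_mul]
    calc e * (f a * f b) = (e * e) * (f a * f b) := by rw [he.2]
      _ = e * (e * f a) * f b := by simp only [mul_assoc]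
      _ = e * (f a * e) * f b := by rw [(hc a).eq]
      _ = e * f a * (e * f b) := by simp only [mul_assoc]
  map_star' a := by
    rw [star_mul, he.1, ← map_star]
    exact (hc _).eq

@[simp] lemma cutHom_apply (e : R) (f : S →⋆ₐ[ℂ] R) (he : IsProj e) (hc : ∀ a, Commute e (f a))
    (a : S) : cutHom e f he hc a = e * f a := rfl

/-! Poincare data -/

def pdD (d φ : R) : M2 R := !![d, 0; φ, star d]
def pdB (d φ : R) (G : M2 R) : M2 R := swp * (pdD d φ + G * pdD d φ * G)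
def pdB' (d φ : R) (G : M2 R) : M2 R := (pdD d φ + G * pdD d φ * G) * swp
def PDok (d φ : R) (G : M2 R) : Prop :=
  d * d = 0 ∧ star φ = φ ∧ φ * d + star d * φ = 0 ∧ pdD d φ * G + G * pdD d φ = 1 ∧
    swp * star G * swp = G
def gam1 (φ ψ k l : R) : M2 R := th (-(φ * k + l * φ)) * !![k, ψ; 0, l]
def gam (φ ψ k l : R) : M2 R := (1 / 2 : ℂ) • (gam1 φ ψ k l + swp * star (gam1 φ ψ k l) * swp)
def uu (e : R) : R := (2 : ℂ) • e - 1
def uφ (φ e : R) : R := (1 / 2 : ℂ) • (φ * uu e + star (uu e) * φ)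
def uG (φ ψ e K L : R) : M2 R :=
  gam (uφ φ e) (uu e * ψ) (-((4 : ℂ) • K + uu e * L)) (φ * ((4 : ℂ) • K + L * uu e) * ψ)
def Bf (d φ ψ e K L : R) : M2 R := pdB d (uφ φ e) (uG φ ψ e K L)
def Bf' (d φ ψ e K L : R) : M2 R := pdB' d (uφ φ e) (uG φ ψ e K L)
def Strict (d φ ψ : R) : Prop := d * d = 0 ∧ Val φ ψ ∧ φ * d + star d * φ = 0
def Idem (d φ ψ e K L : R) : Prop :=
  d * e = e * d ∧ e * e - e = d * K + K * d ∧ ψ * star e * φ - e = d * L + L * d

def two (Y Y' : R) : M2 R := !![(1 / 2 : ℂ) • Y, 1; 1, (4 : ℂ) • Y']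
def two' (Y Y' : R) : M2 R := !![(4 : ℂ) • Y', -1; -1, (1 / 2 : ℂ) • Y]

def A2 (z w : R) : M2 R := (Complex.I / 2) •
  !![star z - z, -(star z - 1 + w * (1 + star z)); z - 1 + star w * (1 + z), w - star w]
def A2' (z w : R) : M2 R := (Complex.I / 2) •
  !![-(w - star w), -(star z - 1 + w * (1 + star z)); z - 1 + star w * (1 + z), -(star z - z)]

end StarAlg

/-! The standard complex -/

abbrev Ix (k : ℕ) := Fin k × Bool
abbrev B (k : ℕ) := Fin k → Fin 2 × Fin 2
abbrev E (k : ℕ) := Ix k → ℝ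
abbrev Lat (k : ℕ) := Ix k → ℤ

def tl {α : Type} {k : ℕ} (z : Ix (k + 1) → α) : Ix k → α := fun i => z (i.1.succ, i.2)

def cmp2 {R : Type} {k : ℕ} (M : M2 (M2 (Matrix (B k) (B k) R))) :
    Matrix (B (k + 1)) (B (k + 1)) R :=
  Matrix.of fun b b' => M (b 0).1 (b' 0).1 (b 0).2 (b' 0).2 (Fin.tail b) (Fin.tail b')

def deg1 (a : Fin 2 × Fin 2) : ℕ := if a.1 = 0 then (if a.2 = 0 then 0 else 2) else 1
def deg {k : ℕ} (b : B k) : ℕ := ∑ j, deg1 (b j)
def b0 (k : ℕ) : B k := fun _ => (0, 0)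
def top (k : ℕ) : B k := fun _ => (0, 1)

section Std
variable {R : Type} [Ring R] [Algebra ℂ R]

def dstep (z w D : R) : M2 (M2 R) :=
  !![!![D, 0; 0, D], !![z - 1, w - 1; 0, 0];
     !![0, -(Complex.I • (w - 1)); 0, Complex.I • (z - 1)], !![-D, 0; 0, -D]]

def dM : (k : ℕ) → (Ix k → R) → Matrix (B k) (B k) R
  | 0, _ => 0
  | k + 1, z => cmp2 (dstep (sc (B k) (z (0, false))) (sc (B k) (z (0, true))) (dM k (tl z)))

def dC (k : ℕ) (i : Ix k) : Matrix (B k) (B k) ℂ := dM k (Pi.single i 1 + 1)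

variable [StarRing R] [StarModule ℂ R]

def φM : (k : ℕ) → (Ix k → R) → Matrix (B k) (B k) R
  | 0, _ => 1
  | k + 1, z => cmp2 (dg (swp * s2 (φM k (tl z)))
      (A2 (sc (B k) (z (0, false))) (sc (B k) (z (0, true))) * s2 (φM k (tl z))))

def ψM : (k : ℕ) → (Ix k → R) → Matrix (B k) (B k) R
  | 0, _ => 1
  | k + 1, z => cmp2 (dg (swp * s2 (ψM k (tl z)))
      (A2' (sc (B k) (z (0, false))) (sc (B k) (z (0, true))) * s2 (ψM k (tl z))))

/-- commuting unitaries -/
def CU {ι : Type} (z : ι → R) : Prop :=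
  (∀ i, star (z i) * z i = 1 ∧ z i * star (z i) = 1) ∧ ∀ i i', Commute (z i) (z i')

/-- the local relations used in one step of the base computation -/
structure BSRel (P Q C z w Z Z' e : R) : Prop where
  zu : star z * z = 1 ∧ z * star z = 1
  wu : star w * w = 1 ∧ w * star w = 1
  zw : Commute z w
  val : Val Z Z'
  Zz : Commute Z z
  Zw : Commute Z w
  ZP : Commute Z P
  ZQ : Commute Z Q
  ZC : Commute Z C
  Pw : Commute P w
  Qz : Commute Q z
  Pz : P * z * (1 - P) = 0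
  Qw : Q * w * (1 - Q) = 0
  ee : e = (Q - star w * Q * w) * (z * P * star z - P)

/-- the local relations between the shifts and the cuts -/
structure LocRel {k : ℕ} (c : Fin k → Cut R) (z : Ix k → R) (e : Fin k → R) : Prop where
  cu : CU z
  cP : ∀ j i, i ≠ (j, false) → Commute (z i) (c j).P
  cQ : ∀ j i, i ≠ (j, true) → Commute (z i) (c j).Q
  cC : ∀ j i, i.1 ≠ j → Commute (z i) (c j).C
  Pz : ∀ j, (c j).P * z (j, false) * (1 - (c j).P) = 0
  Qw : ∀ j, (c j).Q * z (j, true) * (1 - (c j).Q) = 0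
  ee : ∀ j, e j = ((c j).Q - star (z (j, true)) * (c j).Q * z (j, true)) *
    (z (j, false) * (c j).P * star (z (j, false)) - (c j).P)

/-- the exact relations between the cuts and the point projections -/
structure CutRel {k : ℕ} (c : Fin k → Cut R) (e : Fin k → R) : Prop where
  pP : ∀ j, IsProj (c j).P
  pQ : ∀ j, IsProj (c j).Q
  pC : ∀ j, IsProj (c j).C
  pe : ∀ j, IsProj (e j)
  PQ : ∀ j, Commute (c j).P (c j).Q
  Ce : ∀ j, (c j).C * e j = e j
  eP : ∀ j j', Commute (e j) (c j').P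
  eQ : ∀ j j', Commute (e j) (c j').Q
  eC : ∀ j j', Commute (e j) (c j').C
  ee : ∀ j j', Commute (e j) (e j')

end Std

/-! Signature -/

section Sgn
variable {n : Type} [Fintype n]

def hb (M : Matrix n n ℂ) : LinearMap.BilinForm ℝ (n → ℂ) :=
  LinearMap.mk₂ ℝ (fun v w => (star v ⬝ᵥ M *ᵥ w).re)
    (fun a b w => by simp [add_dotProduct])
    (fun r a w => by
      rw [star_smul, smul_dotProduct]; simp)
    (fun v a b => by simp [Matrix.mulVec_add, dotProduct_add])
    (fun r v a => by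
      rw [Matrix.mulVec_smul, dotProduct_smul]; simp)

def hq (M : Matrix n n ℂ) : QuadraticForm ℝ (n → ℂ) := LinearMap.BilinMap.toQuadraticMap (hb M)

lemma hq_apply (M : Matrix n n ℂ) (v : n → ℂ) : hq M v = (star v ⬝ᵥ M *ᵥ v).re := rfl

/-- (twice) the signature of the Hermitian part of `M` -/
def sgn (M : Matrix n n ℂ) : ℤ := (sigPos (hq M) : ℤ) - (sigNeg (hq M) : ℤ)

end Sgn

/-! Lattice operators -/

abbrev CC (k : ℕ) := (B k × Lat k) →₀ ℂ
abbrev Op (k : ℕ) := Module.End ℂ (CC k)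

def ent {k : ℕ} (O : Op k) (i j : B k × Lat k) : ℂ := O (Finsupp.single j 1) i

def dE (k : ℕ) : Op k := Finsupp.lift (CC k) ℂ (B k × Lat k) fun j =>
  ∑ i : Ix k, ∑ b : B k, dC k i b j.1 •
    (Finsupp.single (b, j.2 + Pi.single i 1) (1 : ℂ) - Finsupp.single (b, j.2) 1)

def aug (k : ℕ) : CC k →ₗ[ℂ] ℂ :=
  Finsupp.lift ℂ ℂ (B k × Lat k) fun j => if j.1 = b0 k then 1 else 0

def DegPres {k : ℕ} (O : Op k) : Prop := ∀ i j, ent O i j ≠ 0 → deg i.1 = deg j.1

def BoxConv {k : ℕ} (S : Set (Lat k)) : Prop :=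
  ∀ u ∈ S, ∀ v ∈ S, ∀ w : Lat k, (∀ t, w t ∈ Set.uIcc (u t) (v t)) → w ∈ S

/-- cells within `2k` lattice steps -/
def Nr {k : ℕ} (i j : B k × Lat k) : Prop := ∀ t, |i.2 t - j.2 t| ≤ 2 * k

section Raw
variable {k : ℕ} {n : Type} [Fintype n] [DecidableEq n]

abbrev Raw (k : ℕ) (n : Type) := Matrix (B k) (B k) (Matrix n n ℂ)

def shiftM (v : n → Lat k) (i : Ix k) : Matrix n n ℂ :=
  Matrix.of fun a a' => if v a = v a' + Pi.single i 1 then 1 else 0

def cmp (v : n → Lat k) (O : Op k) : Raw k n :=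
  Matrix.of fun b b' => Matrix.of fun a a' => ent O (b, v a) (b', v a')

def ext (v : n → Lat k) (Y : Raw k n) : Op k := Finsupp.lift (CC k) ℂ (B k × Lat k) fun j =>
  ∑ a' : n, if v a' = j.2 then
    ∑ b : B k, ∑ a : n, Y b j.1 a a' • Finsupp.single (b, v a) (1 : ℂ) else 0

def ColZero (Y : Raw k n) (a : n) : Prop := ∀ b b' u, Y b b' u a = 0

def ind (p : Prop) : ℂ := by classical exact if p then 1 else 0

def rawCuts (g : n → E k) (t : E k) (r : ℝ) : Fin k → Cut (Matrix n n ℂ) := fun j =>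
  ⟨Matrix.diagonal fun a => ind (g a (j, false) ≤ t (j, false)),
   Matrix.diagonal fun a => ind (g a (j, true) ≤ t (j, true)),
   Matrix.diagonal fun a => ind (|g a (j, false) - t (j, false)| ≤ r ∧ |g a (j, true) - t (j, true)| ≤ r)⟩

end Raw

def eta (l : ℕ) : ℝ := 1 / ((l : ℝ) + 1)
def pos {k : ℕ} (η : ℝ) (v : Lat k) : E k := fun i => η * (v i : ℝ)
def UU : Ultrafilter ℕ := Filter.hyperfilter ℕ

def chi {p : ℕ} [Fact p.Prime] (g : ZMod p) : ℂ := ZMod.stdAddChar g

def tw {p : ℕ} [Fact p.Prime] {M : Type} [AddCommGroup M] [Module ℂ M] (s : ZMod p)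
    (X : ZMod p → M) : M := ∑ g : ZMod p, chi (s * g) • X g

/-- a local action of the p-adic integers on an open set of `E k` -/
structure LocAct (p : ℕ) [Fact p.Prime] (k : ℕ) where
  Ω : Set (E k)
  act : ℤ_[p] → E k → E k
  isOpen : IsOpen Ω
  cont : ContinuousOn (fun q : ℤ_[p] × E k => act q.1 q.2) (Set.univ ×ˢ Ω)
  mem : ∀ h, ∀ x ∈ Ω, act h x ∈ Ω
  zero : ∀ x ∈ Ω, act 0 x = x
  add : ∀ h h', ∀ x ∈ Ω, act (h + h') x = act h (act h' x)

/-- the geometric configuration which leads to the contradiction as `δ → 0` -/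
structure Config (p : ℕ) [Fact p.Prime] (k : ℕ) (δ : ℝ) extends LocAct p k where
  f : E k → E k
  K : Set (E k)
  o : E k
  b : E k
  t : E k
  R : ℝ
  Rb : ℝ
  fcont : ContinuousOn f Ω
  finv : ∀ h, ∀ x ∈ Ω, f (act h x) = f x
  Kc : IsCompact K
  KΩ : K ⊆ Ω
  BΩ : Metric.closedBall b Rb ⊆ Ω
  Kint : ∀ h, ∀ x ∈ Metric.closedBall b Rb, act h x ∈ interior K
  back : ∀ x ∈ K, f x ∈ Metric.ball o R → x ∈ Metric.ball b Rb
  unitO : Metric.closedBall 0 1 ⊆ Metric.ball o R
  unitB : Metric.closedBall 0 1 ⊆ Metric.ball b Rb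
  tO : t ∈ Metric.ball o R
  free : ∀ x ∈ K, f x = t → ∃ h, act h x ≠ x
  small : ∀ x ∈ K, (‖x‖ ≤ 1 ∨ ‖f x‖ ≤ 1) → dist (f x) x ≤ δ ∧ ∀ h, dist (act h x) x ≤ δ

end Vale.Agent.P228
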